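import Crest.Agent.N250.B1.Sm2
import Crest.Agent.N250.Act.FV
import Crest.Agent.N250.Po.Area

/-!
# Row 250 (helper29): the action of a real end is `4 π` times its Gaussian area
-/

set_option autoImplicit false
open MeasureTheory Set Filter Topology

noncomputable section

namespace Crest.Agent.N250.Fm.Ac

open B1 Po

/-- a nonnegative periodic function vanishing for `x ≤ α`: strip integral as an iterated integral along
the path `x = φ s` -/
theorem lint_path {F : ℝ × ℝ → ℝ} {φ φ' : ℝ → ℝ} {R X α : ℝ} (hα : R ≤ α) (hX : α ≤ X)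
    (hφ : ∀ s, HasDerivAt φ (φ' s) s) (hc : Continuous φ') (h0 : φ 0 = R) (h1 : φ 1 = X)
    (hm : MapsTo φ (Icc 0 1) (Icc R X)) (hF : ContinuousOn F (Icc R X ×ˢ univ)) (hp : Per F)
    (hn : ∀ q, 0 ≤ F q) (hz : ∀ q : ℝ × ℝ, q.1 ≤ α → F q = 0) :
    0 ≤ ∫ s in (0 : ℝ)..1, (∫ θ in (0 : ℝ)..(2 * Real.pi), F (φ s, θ)) * φ' s ∧
    ∫⁻ q in strip (Ioo α X), ENNReal.ofReal (F q) =
      ENNReal.ofReal (∫ s in (0 : ℝ)..1, (∫ θ in (0 : ℝ)..(2 * Real.pi), F (φ s, θ)) * φ' s) := by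
  have hRX : R ≤ X := hα.trans hX
  set g : ℝ → ℝ := fun x => ∫ θ in (0 : ℝ)..(2 * Real.pi), F (x, θ) with hg
  have hgc : ContinuousOn g (Icc R X) := by
    rw [continuousOn_iff_continuous_domRestrict]
    refine intervalIntegral.continuous_parametric_intervalIntegral_of_continuous' (μ := volume)
      (f := fun (x : Icc R X) θ => F (x, θ)) ?_ _ _
    exact hF.comp_continuous (f := fun p : Icc R X × ℝ => ((p.1 : ℝ), p.2)) (by fun_prop)
      fun p => ⟨p.1.2, trivial⟩
  have e1 : ∫ s in (0 : ℝ)..1, g (φ s) * φ' s = ∫ x in R..X, g x := by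
    have := intervalIntegral.integral_comp_mul_deriv'' (a := 0) (b := 1) (f := φ) (f' := φ') (g := g)
      (fun s _ => (hφ s).continuousAt.continuousWithinAt)
      (fun s _ => (hφ s).hasDerivWithinAt) hc.continuousOn
      (hgc.mono (by rw [uIcc_of_le zero_le_one]; exact hm.image_subset))
    rwa [h0, h1] at this
  have i1 : IntervalIntegrable g volume R α :=
    (hgc.mono (by rw [uIcc_of_le hα]; exact Icc_subset_Icc_right hX)).intervalIntegrable
  have i2 : IntervalIntegrable g volume α X :=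
    (hgc.mono (by rw [uIcc_of_le hX]; exact Icc_subset_Icc_left hα)).intervalIntegrable
  have e2 : ∫ x in R..X, g x = ∫ x in α..X, g x := by
    rw [← intervalIntegral.integral_add_adjacent_intervals i1 i2,
      intervalIntegral.integral_congr (g := fun _ => 0) (fun x hx => by
        rw [uIcc_of_le hα] at hx
        simp only [hg, fun θ => hz (x, θ) hx.2, intervalIntegral.integral_zero]),
      intervalIntegral.integral_zero, zero_add]
  have hi : IntegrableOn F (Ioo α X ×ˢ Ioc (-Real.pi) Real.pi) (volume.prod volume) :=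
    ((hF.mono (prod_mono (Icc_subset_Icc_left hα) (subset_univ _))).integrableOn_compact
      (isCompact_Icc.prod isCompact_Icc)).mono_set (prod_mono Ioo_subset_Icc_self Ioc_subset_Icc_self)
  have e3 : ∫ q in strip (Ioo α X), F q = ∫ x in α..X, g x := by
    rw [strip, Measure.volume_eq_prod, setIntegral_prod F hi, intervalIntegral.integral_of_le hX,
      integral_Ioc_eq_integral_Ioo]
    refine setIntegral_congr_fun measurableSet_Ioo fun x _ => ?_
    have hp' : Function.Periodic (fun θ => F (x, θ)) (2 * Real.pi) := fun θ => hp x θ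
    have := hp'.intervalIntegral_add_eq (-Real.pi) 0
    rw [show -Real.pi + 2 * Real.pi = Real.pi by ring, zero_add,
      intervalIntegral.integral_of_le (by linarith [Real.pi_pos])] at this
    exact this
  have hi' : IntegrableOn F (strip (Ioo α X)) := by rw [strip, Measure.volume_eq_prod]; exact hi
  change 0 ≤ ∫ s in (0 : ℝ)..1, g (φ s) * φ' s ∧ _ = ENNReal.ofReal (∫ s in (0 : ℝ)..1, g (φ s) * φ' s)
  rw [e1, e2, ← e3]
  exact ⟨integral_nonneg hn, (ofReal_integral_eq_lintegral_ofReal hi' (Eventually.of_forall hn)).symm⟩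

/-- the real Lagrangian -/
def lagR (x v p q : ℝ) : ℝ := √(QQ v p q) * Real.exp (-x ^ 2 / 4 - v / 2)

theorem QQ_pos {v : ℝ} (hv : 0 < v) (p q : ℝ) : 0 < QQ v p q := by unfold QQ; positivity

theorem Lag_real (x p q : ℝ) {v : ℝ} (hv : 0 < v) : Act.Lag x v p q = (lagR x v p q : ℝ) := by
  have e : Act.Qf v p q = ((QQ v p q : ℝ) : ℂ) := by unfold Act.Qf QQ; push_cast; ring
  rw [Act.Lag, Act.Wf, e, Complex.sqrt_of_nonneg (by exact_mod_cast (QQ_pos hv p q).le), Act.Ef, lagR]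
  push_cast
  simp

theorem Lag_eq (x v p q : ℂ) : B1.Lag x v p q = Act.Lag x v p q := by
  rw [B1.Lag, Act.Lag, Act.Wf, Complex.sqrt, one_div]; rfl

variable {ℓ : Ell} {R X : ℝ} {a : ℂ} {J : Jt ℓ}

/-- the parameter of the point `x ∈ [R, X]` -/
def tX (R X x : ℝ) : II := projIcc 0 1 zero_le_one (sx R X x)

theorem tX_xr (h : R + 2 ≤ X) (s : II) : tX R X (xr R X s) = s := by
  rw [tX, sx_xr h, projIcc_val]

theorem rd_tX (h : R + 2 ≤ X) : Rd R X (tX R X) (Icc R X) :=
  ⟨convex_Icc _ _, (continuous_projIcc.comp (continuous_sx h)).continuousOn,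
    fun _ hx => fx_gam h hx, fun _ _ d x hx => d.dv h x hx⟩

/-- the `k`-th jet as a function of `(s, θ)` -/
def vs (R : ℝ) (X a : ℂ) (J : Jt ℓ) (k : Fin 6) (z : ℝ × ℝ) : ℂ :=
  vj R X a J (projIcc 0 1 zero_le_one z.1) z.2 k

/-- the action of the end with the cut-off `χ (s)` -/
def actC (χ : ℝ → ℂ) (R : ℝ) (X a : ℂ) (J : Jt ℓ) : ℂ :=
  Act.act 0 1 χ (ex (gam R X)) (ex (dgam R X)) (vs R X a J 0) (vs R X a J 1) (vs R X a J 3)

theorem actC_one (R : ℝ) (X a : ℂ) (J : Jt ℓ) : actC (fun _ => 1) R X a J = B1.act R X a J := by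
  simp only [actC, Act.act, Act.II, B1.act, one_mul, Lag_eq]; rfl

/-- a real function with the values of the jet has the jet as its derivatives -/
theorem d_eq (h : R + 2 ≤ X) (hj : IsJet (dgam R X) J) {α : ℝ} (hα : R ≤ α) {v : ℝ × ℝ → ℝ}
    (hv : ∀ (s : II) (θ : ℝ), α < xr R X s → xr R X s < X → v (xr R X s, θ) = (vj R X a J s θ 0).re)
    {q : ℝ × ℝ} (h1 : α < q.1) (h2 : q.1 < X) :
    v q = (vk R X a J (tX R X) 0 q).re ∧ d1 v q = (vk R X a J (tX R X) 1 q).re ∧
      d2 v q = (vk R X a J (tX R X) 3 q).re := by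
  have e : ∀ y : ℝ × ℝ, α < y.1 → y.1 < X → v y = (vk R X a J (tX R X) 0 y).re := fun y k1 k2 => by
    obtain ⟨s, hs⟩ := exists_xr h (x := y.1) ⟨hα.trans k1.le, k2.le⟩
    have := hv s y.2 (hs ▸ k1) (hs ▸ k2)
    rw [hs] at this
    rw [vk, ← hs, tX_xr h, ← this]
  have hn : Icc R X ×ˢ (univ : Set ℝ) ∈ 𝓝 q :=
    prod_mem_nhds (Icc_mem_nhds (hα.trans_lt h1) h2) univ_mem
  have hd := Complex.reCLM.hasFDerivAt.comp q
    ((hj.fd0 (a := a) (rd_tX h) (mem_of_mem_nhds hn)).hasFDerivAt hn)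
  have he : v =ᶠ[𝓝 q] Complex.reCLM ∘ vk R X a J (tX R X) 0 := by
    filter_upwards [prod_mem_nhds (Ioo_mem_nhds h1 h2) univ_mem] with y hy using e y hy.1.1 hy.1.2
  have hf := (hd.congr_of_eventuallyEq he).fderiv
  exact ⟨e q h1 h2, by rw [d1, hf]; simp, by rw [d2, hf]; simp⟩

/-- **the action of a real end** -/
theorem act_real (h : R + 2 ≤ X) (hj : IsJet (dgam R X) J)
    (hr : ∀ s θ i, (vj R X a J s θ i).im = 0) (hpos : ∀ s θ, 0 < (vj R X a J s θ 0).re)
    {χ : ℝ → ℝ} (hχ : Continuous χ) (h0 : ∀ x, 0 ≤ χ x) {α : ℝ} (hα : R ≤ α) (hX : α ≤ X)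
    (hz : ∀ x ≤ α, χ x = 0) {χs : ℝ → ℂ} (hs : ∀ s ∈ Icc (0 : ℝ) 1, χs s = χ (xr R X s))
    {v : ℝ × ℝ → ℝ}
    (hv : ∀ (s : II) (θ : ℝ), α < xr R X s → xr R X s < X → v (xr R X s, θ) = (vj R X a J s θ 0).re) :
    (actC χs R X a J).im = 0 ∧ 0 ≤ (actC χs R X a J).re ∧
    ∫⁻ q in strip (Ioo α X), ENNReal.ofReal (χ q.1 * (√(Qv v q) *
      ((4 * Real.pi)⁻¹ * Real.exp (-q.1 ^ 2 / 4 - v q / 2)))) =
      ENNReal.ofReal ((actC χs R X a J).re / (4 * Real.pi)) := by
  set w : Fin 6 → ℝ × ℝ → ℝ := fun k q => (vk R X a J (tX R X) k q).re with hw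
  set F : ℝ × ℝ → ℝ := fun q => χ q.1 * (lagR q.1 (w 0 q) (w 1 q) (w 3 q) * (4 * Real.pi)⁻¹) with hF
  have cw : ∀ k, ContinuousOn (w k) (Icc R X ×ˢ univ) := fun k =>
    Complex.continuous_re.comp_continuousOn ((rd_tX h).cont_vk k)
  have cF : ContinuousOn F (Icc R X ×ˢ univ) := by
    have c0 := cw 0
    have c1 := cw 1
    have c3 := cw 3
    have hne : ∀ q ∈ Icc R X ×ˢ (univ : Set ℝ), 2 * w 0 q ≠ 0 := fun q _ =>
      (mul_pos two_pos (hpos _ _)).ne'
    simp only [hF, lagR, QQ]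
    fun_prop (disch := assumption)
  have pF : Per F := fun x θ => by simp only [hF, hw, vk_per]
  have nF : ∀ q, 0 ≤ F q := fun q => by
    have := h0 q.1
    simp only [hF, lagR]; positivity
  obtain ⟨k1, k2⟩ := lint_path hα hX (hasDerivAt_xr R X) (continuous_dxr R X) (xr_zero R X)
    (xr_one R X) (fun s hs => xr_mem h hs) cF pF nF fun q hq => by simp only [hF, hz _ hq, zero_mul]
  set A := ∫ s in (0 : ℝ)..1, (∫ θ in (0 : ℝ)..(2 * Real.pi), F (xr R X s, θ)) * dxr R X s with hA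
  have hp : (4 * Real.pi) ≠ 0 := by positivity
  have e : actC χs R X a J = ((4 * Real.pi * A : ℝ) : ℂ) := by
    rw [hA, ← intervalIntegral.integral_const_mul, ← intervalIntegral.integral_ofReal, actC, Act.act,
      Act.II]
    refine intervalIntegral.integral_congr fun s hs' => ?_
    rw [uIcc_of_le zero_le_one] at hs'
    simp only
    rw [← intervalIntegral.integral_mul_const, ← intervalIntegral.integral_const_mul,
      ← intervalIntegral.integral_ofReal]
    refine intervalIntegral.integral_congr fun θ _ => ?_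
    have ew : ∀ k, vs R X a J k (s, θ) = (w k (xr R X s, θ) : ℝ) := fun k => by
      have := tX_xr h ⟨s, hs'⟩
      simp only [vs, hw, vk, this, projIcc_of_mem _ hs']
      exact Complex.ext (by simp) (by simp [hr])
    have hw0 : 0 < w 0 (xr R X s, θ) := hpos _ _
    simp only [hF]
    rw [hs s hs', ex_mem _ hs', ex_mem _ hs', gam_real, dgam_real, ew, ew, ew, Lag_real _ _ _ hw0]
    have : ((4 * Real.pi : ℝ) : ℂ) ≠ 0 := by exact_mod_cast hp
    push_cast at this ⊢
    field_simp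
  rw [e, Complex.ofReal_re, Complex.ofReal_im, mul_div_cancel_left₀ _ hp, ← k2]
  refine ⟨rfl, mul_nonneg (by positivity) k1, ?_⟩
  refine setLIntegral_congr_fun (measurableSet_Ioo.prod measurableSet_Ioc) fun q hq => ?_
  obtain ⟨e0, e1, e3⟩ := d_eq h hj hα hv hq.1.1 hq.1.2
  simp only [hF, lagR, Qv, hw, ← e0, ← e1, ← e3]
  congr 1; ring

end Crest.Agent.N250.Fm.Ac

end
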