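import Crest.Agent.N250.R.One
import Crest.Agent.N250.Wr.Dat
import Crest.Agent.N250.Po.Area
import Crest.Agent.N250.Gc.Img

/-!
# Row 250 (helper81): real solutions of the glued problem and the model surfaces they define
-/

set_option autoImplicit false
open MeasureTheory Set Filter Topology
open scoped ContDiff InnerProductSpace
open Crest.GeometryTopology.MCF

noncomputable section

namespace Crest.Agent.N250.Fm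

open Wr Po

/-- the 2-jet of `g` at `q` is at most `ε` -/
structure J2le (g : ℝ × ℝ → ℝ) (ε : ℝ) (q : ℝ × ℝ) : Prop where
  h0 : |g q| ≤ ε
  h1 : |d1 g q| ≤ ε
  h2 : |d2 g q| ≤ ε
  h11 : |d1 (d1 g) q| ≤ ε
  h12 : |d1 (d2 g) q| ≤ ε
  h22 : |d2 (d2 g) q| ≤ ε

variable {S : Mv} (e : Ends S)

/-- `v = r² / 2` of the end `j` of `S` -/
def vS (j : Fin e.p) (q : ℝ × ℝ) : ℝ := e.r j q ^ 2 / 2

/-- the core: off the tubes beyond `b` -/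
def Core (b : ℝ) : Set ST := {p | ∀ j, p ∉ Wr.tube e j b}

/-- data of a real solution: core map, rotations of the ends, end functions -/
structure Dat where
  X : ST → E
  R : Fin e.p → E ≃ₗᵢ[ℝ] E
  v : Fin e.p → ℝ × ℝ → ℝ

variable {e}

/-- the frame of the end `j` of the model -/
def Dat.Q (d : Dat e) (j : Fin e.p) : E ≃ₗᵢ[ℝ] E := (d.R j).trans (e.Q j)

/-- the radius of the end `j` of the model -/
def Dat.r (d : Dat e) (j : Fin e.p) (q : ℝ × ℝ) : ℝ := √(2 * d.v j q)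

/-- `C²` size `ε` of the core map and of the rotations, size `ε` of the ends on `(a, L)` -/
structure Dat.Small (d : Dat e) (a b L ε : ℝ) : Prop where
  c0 : ∀ p ∈ S.M, p ∈ Core e b → ‖d.X p - p.1‖ ≤ ε * (1 + ‖p.1‖)
  c1 : ∀ p ∈ S.M, p ∈ Core e b → ∀ i c, |S.D i (fun q => (d.X q - q.1) c) p| ≤ ε
  c2 : ∀ p ∈ S.M, p ∈ Core e b → ∀ i k c, |S.D i (S.D k fun q => (d.X q - q.1) c) p| ≤ ε
  rot : ∀ j y, ‖d.R j y - y‖ ≤ ε * ‖y‖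
  en : ∀ j (q : ℝ × ℝ), a < q.1 → q.1 < L → J2le (fun y => d.v j y - vS e j y) ε q

/-- a real solution with matching strip `(a, b)`, cut `X₀`, constraints `ζ`, multipliers `c` and
total action at most `A` -/
structure Dat.Sol (d : Dat e) {n : ℕ} (f : Fin n → E → ℝ) (a b X₀ : ℝ) (ζ c : Fin n → ℝ) (A : ℝ) :
    Prop where
  sm : S.Sm d.X
  st : ∀ x t, d.X (x, t) = d.X (x, 0)
  smv : ∀ j, ContDiffOn ℝ ∞ (d.v j) {q | a < q.1 ∧ q.1 < X₀}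
  per : ∀ j, Per (d.v j)
  elv : ∀ j (q : ℝ × ℝ), a < q.1 → q.1 < X₀ → ELv (d.v j) q = 0
  mt : ∀ j (q : ℝ × ℝ), a < q.1 → q.1 < b → d.X (pX (e.Q j) (e.r j) q, 0) = pX (d.Q j) (d.r j) q
  el : ∀ p ∈ S.M, p ∈ Core e b → gau 0 1 (d.X p) * S.ELX d.X p / 2 =
    ∑ i, c i * (S.sX d.X p ^ 2 * ⟪gradient (f i) (d.X p), S.NX d.X p⟫_ℝ +
      S.HX d.X p * f i (d.X p))
  pair : ∀ i, ∫ x, zeta e a b x * (f i (d.X (x, 0)) * S.sX d.X (x, 0)) ∂S.mu 0 =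
    ∫ x, f i x ∂S.mu 0 + ζ i
  act : ∫⁻ x, ENNReal.ofReal (zeta e a b x * (gau 0 1 (d.X (x, 0)) * S.sX d.X (x, 0))) ∂S.mu 0 +
    ∑ j, ∫⁻ q in strip (Ioo a X₀), ENNReal.ofReal (Wr.st a b q.1 * (√(Qv (d.v j) q) *
      ((4 * Real.pi)⁻¹ * Real.exp (-q.1 ^ 2 / 4 - d.v j q / 2)))) ≤ ENNReal.ofReal A

/-- the model surface, valid on `B_{X₀ / 2}` -/
structure Out (S : Mv) {n : ℕ} (f : Fin n → E → ℝ) (ρ₀ X₀ : ℝ) (ζ c : Fin n → ℝ) (A : ℝ) (G : Mv) :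
    Prop where
  reg : G.Reg
  st : G.Static
  proper : G.Proper (Metric.ball 0 (X₀ / 2) ×ˢ univ)
  reach : ∀ x ∈ G.sl 0, ‖x‖ < X₀ / 2 → G.Reach (x, 0) ρ₀
  pair : ∀ i, ∫ x, f i x ∂G.mu 0 = ∫ x, f i x ∂S.mu 0 + ζ i
  el : ∀ x ∈ G.sl 0, ‖x‖ < X₀ / 2 → gau 0 1 x * G.shr (x, 0) = ∑ i, c i * G.fv (f i) (x, 0)
  en : ∫⁻ x in Metric.ball 0 (X₀ / 2), ENNReal.ofReal (gau 0 1 x) ∂G.mu 0 ≤ ENNReal.ofReal A

/-- real solutions define model surfaces -/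
def SolS : Prop := ∀ (S : Mv) (e : Ends S), S.IsShr → ∀ a b : ℝ, e.R + 1 ≤ a → a < b →
  ∃ ε₀ ρ₀ : ℝ, 0 < ε₀ ∧ 0 < ρ₀ ∧ ∀ ε : ℝ, 0 < ε → ∃ ε₁ L : ℝ, 0 < ε₁ ∧
    ∀ (n : ℕ) (f : Fin n → E → ℝ) (d : Dat e) (X₀ : ℝ) (ζ c : Fin n → ℝ) (A : ℝ),
      (∀ i, Continuous (f i)) → (∀ i, tsupport (f i) ⊆ Metric.ball 0 a) → L ≤ X₀ →
      d.Sol f a b X₀ ζ c A → d.Small a b X₀ ε₀ → d.Small a b L ε₁ →
      ∃ G : Mv, Out S f ρ₀ X₀ ζ c A G ∧ Near G S ε⁻¹ ε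

/-- the global displacement `Y`: the core map on the core, the end maps on `a < ξ < X₀ - 2` -/
structure Dat.Glue (d : Dat e) (a b X₀ : ℝ) (Y : E → E) : Prop where
  sm : S.Sm fun p => Y p.1
  core : ∀ x ∈ S.sl 0, (x, (0 : ℝ)) ∈ Core e b → x + Y x = d.X (x, 0)
  en : ∀ j (q : ℝ × ℝ), a < q.1 → q.1 < X₀ - 2 →
    pX (e.Q j) (e.r j) q + Y (pX (e.Q j) (e.r j) q) = pX (d.Q j) (d.r j) q
  pos : ∀ j (q : ℝ × ℝ), a < q.1 → q.1 < X₀ → 0 < d.v j q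
  size : ∀ x ∈ S.sl 0, ‖Y x‖ ≤ (1 + ‖x‖) / 10

/-- the common hypotheses of `PairS`, `ElS`, `EnS` -/
structure Ctx (S : Mv) (e : Ends S) (d : Dat e) {n : ℕ} (f : Fin n → E → ℝ) (a b X₀ : ℝ)
    (ζ c : Fin n → ℝ) (A : ℝ) (Y : E → E) (G : Mv) : Prop where
  shr : S.IsShr
  Ra : e.R + 1 ≤ a
  ab : a < b
  bX : 2 * b + 10 ≤ X₀
  cont : ∀ i, Continuous (f i)
  supp : ∀ i, tsupport (f i) ⊆ Metric.ball 0 a
  sol : d.Sol f a b X₀ ζ c A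
  glue : d.Glue a b X₀ Y
  par : S.Par G fun p => p.1 + Y p.1

/-- constraints -/
def PairS : Prop := ∀ (S : Mv) (e : Ends S) (d : Dat e) (n : ℕ) (f : Fin n → E → ℝ) (a b X₀ : ℝ)
  (ζ c : Fin n → ℝ) (A : ℝ) (Y : E → E) (G : Mv), Ctx S e d f a b X₀ ζ c A Y G →
    ∀ i, ∫ x, f i x ∂G.mu 0 = ∫ x, f i x ∂S.mu 0 + ζ i

/-- equation -/
def ElS : Prop := ∀ (S : Mv) (e : Ends S) (d : Dat e) (n : ℕ) (f : Fin n → E → ℝ) (a b X₀ : ℝ)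
  (ζ c : Fin n → ℝ) (A : ℝ) (Y : E → E) (G : Mv), Ctx S e d f a b X₀ ζ c A Y G →
    ∀ x ∈ G.sl 0, ‖x‖ < X₀ / 2 → gau 0 1 x * G.shr (x, 0) = ∑ i, c i * G.fv (f i) (x, 0)

/-- Gaussian area -/
def EnS : Prop := ∀ (S : Mv) (e : Ends S) (d : Dat e) (n : ℕ) (f : Fin n → E → ℝ) (a b X₀ : ℝ)
  (ζ c : Fin n → ℝ) (A : ℝ) (Y : E → E) (G : Mv), Ctx S e d f a b X₀ ζ c A Y G →
    ∫⁻ x in Metric.ball 0 (X₀ / 2), ENNReal.ofReal (gau 0 1 x) ∂G.mu 0 ≤ ENNReal.ofReal A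

theorem Out.model {n : ℕ} {f : Fin n → E → ℝ} {ρ₀ X₀ : ℝ} {ζ c : Fin n → ℝ} {A : ℝ} {G : Mv}
    (h : Out S f ρ₀ X₀ ζ c A G) {C μ r τ ρ : ℝ} {N : ℕ} (hτ : 0 ≤ τ) (hρ : ρ + 3 ≤ X₀ / 2)
    (hA : A ≤ S.Fs 0 0 1 + C * ‖c‖ ^ μ + C * Real.exp (-ρ ^ 2 / 6)) (hr : ρ ≤ r)
    (ha : ρ = r ∨ 1 ≤ C * ρ ^ N * ‖c‖) : Model S f ρ₀ C μ N ζ r τ G ρ c where
  reg := h.reg
  st := h.st
  proper p hp hΩ := h.proper p hp ⟨Metric.ball_subset_ball hρ hΩ.1, trivial⟩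
  reach x hx h1 := h.reach x hx (h1.trans_le hρ)
  pair i := by rw [h.pair i]; simpa using hτ
  el x hx h1 := by rw [h.el x hx (h1.trans_le hρ)]; simpa using hτ
  en := (lintegral_mono_set (Metric.ball_subset_ball hρ)).trans
    (h.en.trans (ENNReal.ofReal_le_ofReal hA))
  le := hr
  alt := ha

end Crest.Agent.N250.Fm

end
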