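import Crest.Agent.N250.Fm.Defs
import Crest.Agent.N250.Rl.En1

/-!
# Row 250, real side (helper50): `Fm.EnS`, and the local structure of the glued map
-/

set_option autoImplicit false
open MeasureTheory Set Filter Topology
open scoped ContDiff InnerProductSpace
open Crest.GeometryTopology.MCF

noncomputable section

namespace Crest.Agent.N250.Fm

open Wr Po

theorem JX_congr {S : Mv} {X X' : ST → E} {p : ST} (hp : p ∈ S.M) (h : X =ᶠ[𝓝[S.M] p] X') :
    S.JX X p = S.JX X' p := by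
  funext a c
  exact Mv.D_congr hp (h.mono fun q hq => by simp only [Mv.cp, hq]) a

theorem sX_congr {S : Mv} {X X' : ST → E} {p : ST} (hp : p ∈ S.M) (h : X =ᶠ[𝓝[S.M] p] X') :
    S.sX X p = S.sX X' p := by
  simp only [Mv.sX, Mv.NX, JX_congr hp h]

variable {S : Mv} {e : Ends S} {d : Dat e} {n : ℕ} {f : Fin n → E → ℝ} {a b X₀ : ℝ}
  {ζ c : Fin n → ℝ} {A : ℝ} {Y : E → E} {G : Mv} {p : ST}

theorem core_of_off (h : ∀ j, p ∈ Off e j b) : p ∈ Core e b := fun j hj =>
  (h j).elim (fun k => lt_asymm k hj.1) fun k => by linarith [hj.2]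

namespace Ctx

variable (h : Ctx S e d f a b X₀ ζ c A Y G)
include h

theorem Rlt : e.R < a := by linarith [h.Ra]

theorem off_of_zeta (hp : p ∈ S.M) (hz : zeta e a b p.1 ≠ 0) (j : Fin e.p) : p ∈ Off e j b := by
  rcases tube_or_off h.shr.st h.Rlt hp j with k | k
  · refine Or.inl (not_le.1 fun k' => hz ?_)
    rw [zeta_tube h.shr.st h.Rlt h.ab hp k, chi_tube k, st_one h.ab k', sub_self]
  · exact Off_mono h.ab.le k

/-- near the open core the glued map is the core map -/
theorem ev_core (ho : ∀ j, p ∈ Off e j b) : (fun q : ST => q.1 + Y q.1) =ᶠ[𝓝[S.M] p] d.X := by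
  filter_upwards [self_mem_nhdsWithin, nhdsWithin_le_nhds ((isOpen_allOff b).mem_nhds ho)]
    with q h1 h2
  rw [h.glue.core q.1 ((h.shr.st.mem q.1 q.2).1 h1) (core_of_off (p := (q.1, 0)) h2),
    ← h.sol.st q.1 q.2]

/-- the ends of the model are polar graphs -/
theorem pol (j : Fin e.p) {q : ℝ × ℝ} (h1 : a < q.1) (h2 : q.1 < X₀ - 2) :
    Pol G 0 (d.Q j) (d.r j) (d.v j) q := by
  have o : ∀ s t : ℝ, IsOpen {q : ℝ × ℝ | s < q.1 ∧ q.1 < t} := fun s t =>
    (isOpen_lt continuous_const continuous_fst).inter (isOpen_lt continuous_fst continuous_const)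
  refine pol_of_v h.par.reg' (((h.sol.smv j).contDiffAt ((o _ _).mem_nhds
    ⟨h1, by linarith⟩)).of_le (WithTop.coe_le_coe.2 (le_top (a := (2 : ℕ∞)))))
    (h.glue.pos j q h1 (by linarith)) ?_
  filter_upwards [(o a (X₀ - 2)).mem_nhds ⟨h1, h2⟩] with y hy
  have := h.par.mem (ends_mem e j (h.Rlt.trans hy.1))
  simp only [hat, h.glue.en j y hy.1 hy.2] at this
  exact this

theorem norm_lt {x : E} (hx : x ∈ S.sl 0) (hX : ‖x + Y x‖ < X₀ / 2) : ‖x‖ < X₀ - 2 := by
  linarith [h.glue.size x hx, norm_le_add_norm_add x (Y x), h.bX, h.ab, h.Ra, R_pos e]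

/-- polar coordinates of a point of a tube -/
theorem exists_q {x : E} (hx : x ∈ S.sl 0) {j : Fin e.p} (ht : ((x, 0) : ST) ∈ tube e j e.R) :
    ∃ q : ℝ × ℝ, q.1 = xi e j x ∧ q.2 ∈ Ioc (-Real.pi) Real.pi ∧ x = pX (e.Q j) (e.r j) q := by
  obtain ⟨θ, hθ⟩ := exists_pol h.shr.st (p := (x, 0)) hx (tube_cone ht) ht.1
  have : x ∈ pX (e.Q j) (e.r j) '' strip {xi e j x} := by
    refine (mem_image_pX (e.per j) (fun q hq => one_pos.trans (e.near j q ?_).1) x).2
      ⟨(xi_eq j x).symm, θ, ?_⟩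
    · rw [mem_singleton_iff.1 hq]; exact ht.1
    · rw [← xi_eq, LinearIsometryEquiv.symm_apply_eq]; exact hθ
  obtain ⟨q, hq, e'⟩ := this
  exact ⟨q, hq.1, hq.2, e'.symm⟩

end Ctx

theorem enS_holds : EnS := by
  intro S e d n f a b X₀ ζ c A Y G h
  have hg : Continuous (gau 0 1) := by unfold gau; fun_prop
  refine (Rl.en_lint h.par (ze := zeta e a b) (ka := fun _ => st a b) (Q := d.Q) (r := d.r)
    (v := d.v) (I := fun _ => Ioo a (X₀ - 2)) Metric.isOpen_ball.measurableSet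
    (fun _ => measurableSet_Ioo) (fun _ => (contDiff_st a b).continuous.measurable) hg.measurable
    (fun j q hq => h.pol j hq.1.1 hq.1.2) (fun x _ => zeta_nonneg a b x)
    (fun _ s _ => st_nonneg a b s) (fun y => by unfold gau; positivity) fun x hx hB => ?_).trans
    (le_trans (add_le_add (le_of_eq ?_) (Finset.sum_le_sum fun j _ => ?_)) h.sol.act)
  · rcases tube_or_allOff h.shr.st h.Rlt (p := (x, 0)) hx with ⟨j, hj⟩ | ho
    · have hz : zeta e a b x = 1 - st a b (xi e j x) :=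
        (zeta_tube h.shr.st h.Rlt h.ab (p := (x, 0)) hx hj).trans (by rw [chi_tube hj])
      by_cases k : xi e j x ≤ a
      · exact Or.inl (by rw [hz, st_zero h.ab k, sub_zero])
      · obtain ⟨q, q1, q2, q3⟩ := h.exists_q hx hj
        have k1 : a < q.1 := q1 ▸ not_le.1 k
        have k2 : q.1 < X₀ - 2 := q1 ▸ ((le_abs_self _).trans (abs_xi_le j x)).trans_lt
          (h.norm_lt hx (mem_ball_zero_iff.1 hB))
        refine Or.inr ⟨j, q, ⟨⟨k1, k2⟩, q2⟩, ?_, by rw [hz, q1, sub_add_cancel]⟩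
        rw [← h.glue.en j q k1 k2, ← q3]
    · exact Or.inl (zeta_one h.ab (p := (x, 0)) ho).ge
  · refine lintegral_congr_ae ((ae_restrict_mem (FV.meas_sl h.shr.reg 0)).mono fun x hx => ?_)
    by_cases hz : zeta e a b x = 0
    · simp only [hz, zero_mul]
    · have ev := h.ev_core (h.off_of_zeta (p := (x, 0)) hx hz)
      have e1 : x + Y x = d.X (x, 0) := ev.eq_of_nhdsWithin hx
      simp only [sX_congr (p := (x, 0)) hx ev, e1, mul_comm]
  · refine le_trans (le_of_eq (setLIntegral_congr_fun (measurableSet_Ioo.prod measurableSet_Ioc)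
      fun q hq => ?_)) (lintegral_mono_set (prod_mono (Ioo_subset_Ioo_right (by linarith)) Subset.rfl))
    simp only [(h.pol j hq.1.1 hq.1.2).gau_eq]

end Crest.Agent.N250.Fm

end
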