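import Crest.Agent.N250.Fm.Jet
import Crest.Agent.N250.Fm.En
import Crest.Agent.N250.Rl.Img2
import Crest.Agent.N250.Wr.Z

/-!
# Row 250 (helper81): the global displacement of a real solution, and `SolS`
-/

set_option autoImplicit false
open MeasureTheory Set Filter Topology
open scoped ContDiff InnerProductSpace
open Crest.GeometryTopology.MCF

noncomputable section

namespace Crest.Agent.N250.Fm

open Wr Po

/-- jets of a displacement on a tube -/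
def TubeS : Prop := ∀ (S : Mv), S.IsShr → ∀ e : Ends S, ∃ C : ℝ, 0 < C ∧
  ∀ (j : Fin e.p) (R : E ≃ₗᵢ[ℝ] E) (v : ℝ × ℝ → ℝ) (a : ℝ) (Y : E → E), e.R ≤ a →
    ContDiffOn ℝ ∞ v {q | a < q.1} → Per v → (∀ q : ℝ × ℝ, a < q.1 → |v q - vS e j q| ≤ 1 / 10) →
    (∀ q : ℝ × ℝ, a < q.1 → pX (e.Q j) (e.r j) q + Y (pX (e.Q j) (e.r j) q) =
      pX (R.trans (e.Q j)) (fun q => √(2 * v q)) q) →
    ContDiffOn ℝ ∞ (fun p : ST => Y p.1) (S.M ∩ tube e j a) ∧
    ∀ ε : ℝ, ε ≤ 1 / 10 → (∀ y, ‖R y - y‖ ≤ ε * ‖y‖) → ∃ T : E →L[ℝ] E, ‖T‖ ≤ ε ∧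
      ∀ p ∈ S.M, p ∈ tube e j a → J2le (fun y => v y - vS e j y) ε (crd (e.Q j) p.1) →
        ‖Y p.1 - T p.1‖ ≤ C * ε ∧ (∀ i c, |S.D i (Rl.Yc Y c) p| ≤ C * ε) ∧
          ∀ i k c, |S.D i (S.D k (Rl.Yc Y c)) p| ≤ C * ε

variable {S : Mv} {e : Ends S}

/-- the end functions, cut off near `X₀` -/
def Dat.vc (d : Dat e) (X₀ : ℝ) (j : Fin e.p) (q : ℝ × ℝ) : ℝ :=
  vS e j q + ka (X₀ - 1) q * (d.v j q - vS e j q)

open Classical in
/-- the global displacement -/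
def Dat.Y (d : Dat e) (b X₀ : ℝ) (x : E) : E :=
  if h : ∃ j, ((x, 0) : ST) ∈ tube e j b then
    pX (d.Q h.choose) (fun q => √(2 * d.vc X₀ h.choose q)) (crd (e.Q h.choose) x) - x
  else d.X (x, 0) - x

variable {d : Dat e} {n : ℕ} {f : Fin n → E → ℝ} {a b X₀ L ε K : ℝ} {ζ c : Fin n → ℝ} {A : ℝ}
  {j : Fin e.p} {q : ℝ × ℝ} {x : E} {p : ST}

theorem per_vS (j : Fin e.p) : Per (vS e j) := fun s θ => by rw [vS, vS, e.per]

theorem sm_vS (h : e.R < q.1) : ContDiffAt ℝ ∞ (vS e j) q :=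
  (((e.sm j).contDiffAt ((isOpen_lt continuous_const continuous_fst).mem_nhds h)).pow 2).div_const 2

theorem half_lt_vS (h : e.R < q.1) : 1 / 2 < vS e j q := by
  have := (e.near j q h).1
  rw [vS]; nlinarith

theorem per_pX {Q : E ≃ₗᵢ[ℝ] E} {r : ℝ × ℝ → ℝ} (h : Per r) : Per (pX Q r) := fun s θ => by
  simp only [pX, h s θ, cylP, Real.cos_add_two_pi, Real.sin_add_two_pi]

theorem vc_eq (h : q.1 ≤ X₀ - 2) : d.vc X₀ j q = d.v j q := by
  rw [Dat.vc, ka, Real.smoothTransition.one_of_one_le (by linarith)]; ring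

theorem vc_far (h : X₀ - 1 ≤ q.1) : d.vc X₀ j q = vS e j q := by
  rw [Dat.vc, ka, Real.smoothTransition.zero_of_nonpos (by linarith)]; ring

theorem ev_far (h : X₀ ≤ q.1) : d.vc X₀ j =ᶠ[𝓝 q] vS e j :=
  (continuous_fst.continuousAt.eventually (lt_mem_nhds (show X₀ - 1 < q.1 by linarith))).mono
    fun _ hy => vc_far hy.le

theorem Y_core (h : ((x, 0) : ST) ∈ Core e b) : d.Y b X₀ x = d.X (x, 0) - x := by
  rw [Dat.Y, dif_neg (not_exists.2 h)]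

theorem Y_tube (hb : e.R ≤ b) (h : ((x, 0) : ST) ∈ tube e j b) :
    d.Y b X₀ x = pX (d.Q j) (fun q => √(2 * d.vc X₀ j q)) (crd (e.Q j) x) - x := by
  have h' : ∃ j, ((x, 0) : ST) ∈ tube e j b := ⟨j, h⟩
  have : h'.choose = j := by_contra fun k =>
    tube_disj k (tube_mono hb h) (tube_mono hb h'.choose_spec)
  rw [Dat.Y, dif_pos h', this]

namespace Dat.Sol

variable (h : d.Sol f a b X₀ ζ c A)
include h

theorem sm_v (h1 : a < q.1) (h2 : q.1 < X₀) : ContDiffAt ℝ ∞ (d.v j) q :=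
  (h.smv j).contDiffAt (((isOpen_lt continuous_const continuous_fst).inter
    (isOpen_lt continuous_fst continuous_const)).mem_nhds ⟨h1, h2⟩)

theorem per_vc (j : Fin e.p) : Per (d.vc X₀ j) := fun s θ => by
  simp only [Dat.vc, ka, per_vS j s θ, h.per j s θ]

theorem sm_vc (ha : e.R ≤ a) (j : Fin e.p) : ContDiffOn ℝ ∞ (d.vc X₀ j) {q | a < q.1} :=
  fun q hq => by
  have h0 := sm_vS (j := j) (ha.trans_lt hq)
  refine ContDiffAt.contDiffWithinAt ?_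
  rcases lt_or_ge q.1 X₀ with k | k
  · exact h0.add ((contDiff_ka _).contDiffAt.mul ((h.sm_v hq k).sub h0))
  · exact h0.congr_of_eventuallyEq (ev_far k)

/-- the matching holds up to `b` -/
theorem mt' (ha : e.R ≤ a) (hX : b < X₀) (h1 : a < q.1) (h2 : q.1 ≤ b) :
    d.X (pX (e.Q j) (e.r j) q, 0) = pX (d.Q j) (d.r j) q := by
  have hR := ha.trans_lt h1
  have c0 : ContinuousAt (fun t : ℝ => (t, q.2)) q.1 := by fun_prop
  have c1 : ContinuousAt (fun t : ℝ => ((pX (e.Q j) (e.r j) (t, q.2), 0) : ST)) q.1 :=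
    (ContinuousAt.comp (f := fun t : ℝ => (t, q.2)) (contDiffAt_pX ((e.sm j).contDiffAt
      ((isOpen_lt continuous_const continuous_fst).mem_nhds hR))).continuousAt c0).prodMk
      continuousAt_const
  have c2 : Tendsto (fun t : ℝ => d.X (pX (e.Q j) (e.r j) (t, q.2), 0)) (𝓝 q.1)
      (𝓝 (d.X (pX (e.Q j) (e.r j) q, 0))) :=
    (h.sm.continuousOn _ (ends_mem e j hR)).tendsto.comp (tendsto_nhdsWithin_iff.2
      ⟨c1, (lt_mem_nhds hR).mono fun t ht => ends_mem e j (q := (t, q.2)) ht⟩)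
  have c3 : ContinuousAt (fun t : ℝ => pX (d.Q j) (d.r j) (t, q.2)) q.1 :=
    ContinuousAt.comp (f := fun t : ℝ => (t, q.2)) (contDiffAt_pX (n := 0) (contDiffAt_zero.2
      ⟨_, ((isOpen_lt continuous_const continuous_fst).inter
        (isOpen_lt continuous_fst continuous_const)).mem_nhds ⟨h1, h2.trans_lt hX⟩,
        (continuousOn_const.mul (h.smv j).continuousOn).sqrt⟩)).continuousAt c0
  refine tendsto_nhds_unique_of_eventuallyEq (l := 𝓝[<] q.1) (c2.mono_left nhdsWithin_le_nhds)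
    (c3.tendsto.mono_left nhdsWithin_le_nhds) ?_
  filter_upwards [Ioo_mem_nhdsLT h1] with t ht using h.mt j (t, q.2) ht.1 (ht.2.trans_le h2)

theorem Y_en (ha : e.R ≤ a) (hab : a < b) (hX : b + 2 ≤ X₀) (h1 : a < q.1) :
    pX (e.Q j) (e.r j) q + d.Y b X₀ (pX (e.Q j) (e.r j) q) =
      pX (d.Q j) (fun q => √(2 * d.vc X₀ j q)) q := by
  have hR := ha.trans_lt h1
  rcases lt_or_ge b q.1 with k | k
  · rw [Y_tube (ha.trans hab.le) (pX_tube hR k 0), add_sub_cancel]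
    exact (per_pX fun s θ => by simp only [h.per_vc j s θ]).crd_pX
      (one_pos.trans (e.near j q hR).1)
  · have hc : ((pX (e.Q j) (e.r j) q, 0) : ST) ∈ Core e b := fun i hi => by
      rcases eq_or_ne i j with rfl | hij
      · exact absurd (hi.1.trans_eq (xi_pX _ _ _)) (not_lt.2 k)
      · exact tube_disj hij (pX_tube hR hR 0) (tube_mono (ha.trans hab.le) hi)
    rw [Y_core hc, add_sub_cancel, h.mt' ha (by linarith) h1 k, pX, pX, Dat.r,
      vc_eq (by linarith)]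

theorem ev_Y (hp : ∀ j, p ∈ Off e j b) :
    (fun q : ST => d.Y b X₀ q.1) =ᶠ[𝓝[S.M] p] fun q => d.X q - q.1 := by
  filter_upwards [nhdsWithin_le_nhds ((isOpen_allOff b).mem_nhds hp)] with q h2
  rw [Y_core (core_of_off (p := (q.1, 0)) h2), ← h.st q.1 q.2]

theorem j2_vc (ha : e.R ≤ a) (hK1 : 1 ≤ K) (hK : ∀ (c : ℝ) (g : ℝ × ℝ → ℝ) (q : ℝ × ℝ) (ε : ℝ),
    ContDiffAt ℝ 2 g q → J2le g ε q → J2le (fun y => ka c y * g y) (K * ε) q)
    (hs : d.Small a b L ε) (hε : 0 ≤ ε) (hL : L ≤ X₀) (h1 : a < q.1) (h2 : q.1 < L ∨ X₀ ≤ q.1) :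
    J2le (fun y => d.vc X₀ j y - vS e j y) (K * ε) q := by
  rcases h2 with k | k
  · exact (hK (X₀ - 1) _ q ε (((h.sm_v h1 (k.trans_le hL)).sub (sm_vS (ha.trans_lt h1))).of_le
      (WithTop.coe_le_coe.2 le_top)) (hs.en j q h1 k)).congr
      (.of_forall fun y => add_sub_cancel_left _ _)
  · exact (j2le_zero (by positivity)).congr ((ev_far k).mono fun y hy => sub_eq_zero.2 hy)

end Dat.Sol

theorem tube_or_core (hS : S.Static) (ha : e.R ≤ a) (hab : a < b) (hp : p ∈ S.M) :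
    (∃ j, p ∈ tube e j a) ∨ ∀ j, p ∈ Off e j b := by
  by_cases h : ∃ j, p ∈ tube e j a
  · exact Or.inl h
  · exact Or.inr fun j => (tube_or_off' hS (ha.trans_lt hab) hab hp j).resolve_left
      fun k => h ⟨j, k⟩

/-- smoothness and size of the displacement -/
theorem exists_D (hT : TubeS) (hS : S.IsShr) (e : Ends S) : ∃ D : ℝ, 1 ≤ D ∧
    ∀ (n : ℕ) (f : Fin n → E → ℝ) (d : Dat e) (a b X₀ : ℝ) (ζ c : Fin n → ℝ) (A ε₀ : ℝ),
      e.R ≤ a → a < b → b + 2 ≤ X₀ → d.Sol f a b X₀ ζ c A → d.Small a b X₀ ε₀ → 0 ≤ ε₀ →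
      D * ε₀ ≤ 1 / 10 → (S.Sm fun p => d.Y b X₀ p.1) ∧
      ∀ L ε, d.Small a b L ε → L ≤ X₀ → 0 ≤ ε → D * ε ≤ 1 / 10 →
        (∀ x ∈ S.sl 0, (‖x‖ < L ∨ L = X₀) → ‖d.Y b X₀ x‖ ≤ D * ε * (1 + ‖x‖) ∧
          (∀ i c, |S.D i (Rl.Yc (d.Y b X₀) c) (x, 0)| ≤ D * ε) ∧
          ∀ i k c, |S.D i (S.D k (Rl.Yc (d.Y b X₀) c)) (x, 0)| ≤ D * ε) ∧
        ∀ j, ∃ T : E →L[ℝ] E, ‖T‖ ≤ D * ε ∧ ∀ x ∈ S.sl 0, ((x, 0) : ST) ∈ tube e j a →
          (‖x‖ < L ∨ L = X₀) → ‖d.Y b X₀ x - T x‖ ≤ D * ε := by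
  obtain ⟨C, C0, hC⟩ := hT S hS e
  obtain ⟨K, K1, hK⟩ := exists_ka
  refine ⟨(C + 1) * K, by nlinarith, fun n f d a b X₀ ζ c A ε₀ ha hab hX h h0 e0 e1 => ?_⟩
  have k0 : ∀ ε, 0 ≤ ε → ε ≤ K * ε ∧ K * ε ≤ (C + 1) * K * ε ∧ C * (K * ε) ≤ (C + 1) * K * ε :=
    fun ε hε => by
      have : 0 ≤ K * ε := by positivity
      exact ⟨by nlinarith, by nlinarith, by nlinarith⟩
  have ht := fun j => hC j (d.R j) (d.vc X₀ j) a (d.Y b X₀) ha (h.sm_vc ha j) (h.per_vc j)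
    (fun q hq => ((h.j2_vc ha K1 hK h0 e0 le_rfl hq (lt_or_ge _ _)).h0.trans (k0 _ e0).2.1).trans e1)
    fun q hq => h.Y_en ha hab hX hq
  refine ⟨fun p hp => ?_, fun L ε hs hL hε hε' => ?_⟩
  · rcases tube_or_core hS.st ha hab hp with ⟨j, k⟩ | k
    · exact ((ht j).1 p ⟨hp, k⟩).mono_of_mem_nhdsWithin
        (inter_mem_nhdsWithin _ ((isOpen_tube j a).mem_nhds k))
    · exact ((h.sm p hp).sub contDiffWithinAt_fst).congr_of_eventuallyEq (h.ev_Y k)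
        ((h.ev_Y k).eq_of_nhdsWithin hp)
  obtain ⟨k1, k2, k3⟩ := k0 ε hε
  choose T hT1 hT2 using fun j => (ht j).2 (K * ε) (k2.trans hε') fun y =>
    (hs.rot j y).trans (mul_le_mul_of_nonneg_right k1 (norm_nonneg y))
  have hT3 := fun j x (hx : x ∈ S.sl 0) (k : ((x, 0) : ST) ∈ tube e j a) (hl : ‖x‖ < L ∨ L = X₀) =>
    hT2 j (x, 0) hx k (h.j2_vc ha K1 hK hs hε hL (k.1.trans_eq (xi_eq j x)) (hl.elim
      (fun hl => Or.inl (((xi_eq j x).symm.trans_le ((le_abs_self _).trans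
        (abs_xi_le j x))).trans_lt hl)) fun hl => hl ▸ lt_or_ge _ _))
  refine ⟨fun x hx hl => ?_, fun j => ⟨T j, (hT1 j).trans k2, fun x hx k hl =>
    (hT3 j x hx k hl).1.trans k3⟩⟩
  have hn := norm_nonneg x
  rcases tube_or_core hS.st ha hab (p := (x, 0)) hx with ⟨j, k⟩ | k
  · obtain ⟨b0, b1, b2⟩ := hT3 j x hx k hl
    refine ⟨?_, fun i c => (b1 i c).trans k3, fun i k c => (b2 i k c).trans k3⟩
    have := ((T j).le_opNorm x).trans (mul_le_mul_of_nonneg_right ((hT1 j).trans k2) hn)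
    have := norm_le_norm_sub_add (d.Y b X₀ x) (T j x)
    simp only at b0
    nlinarith
  · have ev : ∀ c, Rl.Yc (d.Y b X₀) c =ᶠ[𝓝[S.M] (x, 0)] fun q => (d.X q - q.1) c := fun c =>
      (h.ev_Y k).mono fun q hq => congrArg (· c) hq
    have hc := core_of_off k
    refine ⟨?_, fun i c => ?_, fun i k c => ?_⟩
    · rw [Y_core hc]
      exact (hs.c0 _ hx hc).trans (mul_le_mul_of_nonneg_right (k1.trans k2) (by positivity))
    · rw [Mv.D_congr hx (ev c)]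
      exact (hs.c1 _ hx hc i c).trans (k1.trans k2)
    · rw [Mv.D_congr hx (((eventually_eventually_nhdsWithin.2 (ev c)).and
        self_mem_nhdsWithin).mono fun q hq => Mv.D_congr hq.2 hq.1 k)]
      exact (hs.c2 _ hx hc i k c).trans (k1.trans k2)

theorem solS_of (hT : TubeS) (hP : PairS) (hE : ElS) : SolS := by
  intro S e hS a b ha hab
  have hR := R_pos e
  have ha' : e.R ≤ a := by linarith
  obtain ⟨D, D1, hD⟩ := exists_D hT hS e
  obtain ⟨ε', e0, hI⟩ := Rl.img e hS (2 * a)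
  obtain ⟨ρ₀, r0, hρ, hI⟩ := hI 1
  have m0 : 0 < min ε' (1 / 10) := by positivity
  have m1 : D * (min ε' (1 / 10) / D) = min ε' (1 / 10) := by field_simp
  refine ⟨min ε' (1 / 10) / D, ρ₀, by positivity, r0, fun ε hε => ?_⟩
  have n0 : 0 < min (1 / 10) (ε / (84 / ρ₀ + 8)) := by positivity
  have n1 : D * (min (1 / 10) (ε / (84 / ρ₀ + 8)) / (D * (2 * ε⁻¹ + 2))) * (2 * ε⁻¹ + 2) =
      min (1 / 10) (ε / (84 / ρ₀ + 8)) := by field_simp
  have n2 : (84 / ρ₀ + 8) * min (1 / 10) (ε / (84 / ρ₀ + 8)) ≤ ε := by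
    rw [mul_comm, ← le_div_iff₀ (by positivity)]; exact min_le_right _ _
  have n3 := min_le_left (1 / 10) (ε / (84 / ρ₀ + 8))
  have n4 : 0 < min (1 / 10) (ε / (84 / ρ₀ + 8)) / (D * (2 * ε⁻¹ + 2)) := by positivity
  generalize min (1 / 10) (ε / (84 / ρ₀ + 8)) = η at *
  refine ⟨_, max (2 * ε⁻¹ + 1) (2 * b + 10), n4, fun n f d X₀ ζ c A hc hs hL h h0 h1 => ?_⟩
  generalize η / (D * (2 * ε⁻¹ + 2)) = ε₁ at *
  have hX := (le_max_right _ _).trans hL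
  have i0 : 0 < ε⁻¹ := by positivity
  have i1 : 0 < 84 / ρ₀ := by positivity
  have n5 : D * ε₁ ≤ η := by nlinarith [mul_pos (one_pos.trans_le D1) n4]
  have p0 : 0 ≤ min ε' (1 / 10) / D := by positivity
  obtain ⟨sm, hb⟩ := hD n f d a b X₀ ζ c A _ ha' hab (by linarith) h h0 p0
    (m1.trans_le (min_le_right _ _))
  obtain ⟨b0, t0⟩ := hb _ _ h0 le_rfl p0 (m1.trans_le (min_le_right _ _))
  obtain ⟨b1, -⟩ := hb _ _ h1 hL n4.le (n5.trans n3)
  rw [m1] at b0 t0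
  have sz : ∀ x ∈ S.sl 0, ‖d.Y b X₀ x‖ ≤ (1 + ‖x‖) / 10 := fun x hx =>
    (b0 x hx (Or.inr rfl)).1.trans (by nlinarith [min_le_right ε' (1 / 10), norm_nonneg x])
  have o := hI (d.Y b X₀) ⟨sm, fun x hx => (b0 x hx (Or.inr rfl)).1.trans
      (mul_le_mul_of_nonneg_right (min_le_left _ _) (by positivity)),
    fun x hx i c => ((b0 x hx (Or.inr rfl)).2.1 i c).trans (min_le_left _ _),
    fun x hx i k c => ((b0 x hx (Or.inr rfl)).2.2 i k c).trans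
      ((min_le_right _ _).trans (by norm_num)), fun j => by
      obtain ⟨T, t1, t2⟩ := t0 j
      refine ⟨T, t1.trans (min_le_left _ _), fun x hx k hx' =>
        (t2 x hx ?_ (Or.inr rfl)).trans (min_le_left _ _)⟩
      have k1 := (mem_cone j x).1 k
      have k2 := norm_le_xi_wv j x
      have k3 : 0 ≤ xi e j x := nonneg_of_mul_nonneg_right ((norm_nonneg _).trans k1) e.ε_pos
      rw [abs_of_nonneg k3] at k2
      have k4 : a < xi e j x := by nlinarith [e.ε_le]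
      exact ⟨k4, (cone_tube hS.st (p := (x, 0)) hx k (ha'.trans_lt k4)).1.2⟩⟩
  have ctx : Ctx S e d f a b X₀ ζ c A (d.Y b X₀) (S.img (Rl.XY (d.Y b X₀))) :=
    ⟨hS, ha, hab, hX, hc, hs, h, ⟨sm, fun x _ k => by rw [Y_core k, add_sub_cancel],
      fun j q q1 q2 => by rw [h.Y_en ha' hab (by linarith) q1, pX, pX, Dat.r, vc_eq q2.le],
      fun j q q1 q2 => by
        have := (abs_le.1 (h0.en j q q1 q2).h0).1
        have := half_lt_vS (j := j) (ha'.trans_lt q1)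
        nlinarith [min_le_right ε' (1 / 10)], sz⟩, o.par⟩
  refine ⟨_, ⟨o.reg, o.st, fun p hp _ => o.closed.closure_subset hp, fun x hx _ => o.reach x hx,
    hP _ _ _ _ _ _ _ _ _ _ _ _ _ ctx, hE _ _ _ _ _ _ _ _ _ _ _ _ _ ctx,
    enS_holds _ _ _ _ _ _ _ _ _ _ _ _ _ ctx⟩,
    o.near r0 le_rfl hρ sm n3 (by nlinarith) (by nlinarith) fun y hy k => ?_⟩
  have k1 : ‖y‖ < 2 * ε⁻¹ + 1 := by
    have := sz y hy
    have := norm_le_add_norm_add y (d.Y b X₀ y)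
    have := norm_nonneg y
    rcases k with k | k <;> linarith
  obtain ⟨c0, c1, c2⟩ := b1 y hy (Or.inl (k1.trans_le (le_max_left _ _)))
  exact ⟨c0.trans (n1 ▸ mul_le_mul_of_nonneg_left (by linarith) (by positivity)),
    fun i c => (c1 i c).trans n5, fun i k c => (c2 i k c).trans n5⟩

end Crest.Agent.N250.Fm

end
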