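import Crest.Agent.N250.Fm.Defs

/-!
# Row 250 (helper81): 2-jets of functions of `(x, θ)` and of their lifts to the tubes
-/

set_option autoImplicit false
open MeasureTheory Set Filter Topology
open scoped ContDiff InnerProductSpace
open Crest.GeometryTopology.MCF

noncomputable section

namespace Crest.Agent.N250.Fm

open Wr Po

/-! ### calculus in the plane -/

section Plane

variable {f g : ℝ × ℝ → ℝ} {q : ℝ × ℝ} {α β K M : ℝ} {ψ : ℝ → ℝ}

theorem dd_mul (hf : DifferentiableAt ℝ f q) (hg : DifferentiableAt ℝ g q) (w : ℝ × ℝ) :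
    fderiv ℝ (fun y => f y * g y) q w = f q * fderiv ℝ g q w + fderiv ℝ f q w * g q := by
  rw [fderiv_fun_mul hf hg]
  simp only [add_apply, smul_apply, smul_eq_mul]
  ring

theorem dd_add (hf : DifferentiableAt ℝ f q) (hg : DifferentiableAt ℝ g q) (w : ℝ × ℝ) :
    fderiv ℝ (fun y => f y + g y) q w = fderiv ℝ f q w + fderiv ℝ g q w := by
  rw [fderiv_fun_add hf hg, add_apply]

theorem dd2_mul (hf : ContDiffAt ℝ 2 f q) (hg : ContDiffAt ℝ 2 g q) (w' w : ℝ × ℝ) :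
    fderiv ℝ (fun y => fderiv ℝ (fun z => f z * g z) y w) q w' =
      f q * fderiv ℝ (fun y => fderiv ℝ g y w) q w' + fderiv ℝ f q w' * fderiv ℝ g q w +
        (fderiv ℝ f q w * fderiv ℝ g q w' + fderiv ℝ (fun y => fderiv ℝ f y w) q w' * g q) := by
  have e : (fun y => fderiv ℝ (fun z => f z * g z) y w) =ᶠ[𝓝 q]
      fun y => f y * fderiv ℝ g y w + fderiv ℝ f y w * g y := by
    filter_upwards [ev_diff hf, ev_diff hg] with y h1 h2 using dd_mul h1 h2 w
  have f0 := hf.differentiableAt (by simp)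
  have g0 := hg.differentiableAt (by simp)
  rw [e.fderiv_eq, dd_add (f0.fun_mul (diff_fd hg w)) ((diff_fd hf w).fun_mul g0),
    dd_mul f0 (diff_fd hg w), dd_mul (diff_fd hf w) g0]

theorem dd_comp (hf : DifferentiableAt ℝ f q) (hψ : DifferentiableAt ℝ ψ (f q))
    (w : ℝ × ℝ) : fderiv ℝ (fun y => ψ (f y)) q w = deriv ψ (f q) * fderiv ℝ f q w := by
  have := (hψ.hasDerivAt.comp_hasFDerivAt q hf.hasFDerivAt).fderiv
  rw [show (fun y => ψ (f y)) = ψ ∘ f from rfl, this, smul_apply, smul_eq_mul]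

theorem dd2_comp (hf : ContDiffAt ℝ 2 f q) (hψ : ContDiffAt ℝ 2 ψ (f q)) (w' w : ℝ × ℝ) :
    fderiv ℝ (fun y => fderiv ℝ (fun z => ψ (f z)) y w) q w' =
      deriv ψ (f q) * fderiv ℝ (fun y => fderiv ℝ f y w) q w' +
        deriv (deriv ψ) (f q) * fderiv ℝ f q w' * fderiv ℝ f q w := by
  have h1 : ∀ᶠ s in 𝓝 (f q), DifferentiableAt ℝ ψ s :=
    (hψ.eventually (by simp)).mono fun s hs => hs.differentiableAt (by simp)
  have h2 : DifferentiableAt ℝ (deriv ψ) (f q) :=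
    (hψ.derivWithin (m := 1) (by norm_num)).differentiableAt (by simp)
  have f0 := hf.differentiableAt (by simp)
  have e : (fun y => fderiv ℝ (fun z => ψ (f z)) y w) =ᶠ[𝓝 q]
      fun y => deriv ψ (f y) * fderiv ℝ f y w := by
    filter_upwards [ev_diff hf, f0.continuousAt.eventually h1] with y a b using dd_comp a b w
  rw [e.fderiv_eq, dd_mul (f := fun y => deriv ψ (f y)) (h2.comp q f0) (diff_fd hf w),
    dd_comp f0 h2]

/-- the derivatives of order one and two are at most `K` -/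
structure D2le (g : ℝ × ℝ → ℝ) (K : ℝ) (q : ℝ × ℝ) : Prop where
  h1 : |d1 g q| ≤ K
  h2 : |d2 g q| ≤ K
  h11 : |d1 (d1 g) q| ≤ K
  h12 : |d1 (d2 g) q| ≤ K
  h22 : |d2 (d2 g) q| ≤ K

theorem J2le.nonneg (h : J2le g K q) : 0 ≤ K := (abs_nonneg _).trans h.h0

theorem J2le.mono (h : J2le g K q) (hK : K ≤ M) : J2le g M q :=
  ⟨h.h0.trans hK, h.h1.trans hK, h.h2.trans hK, h.h11.trans hK, h.h12.trans hK, h.h22.trans hK⟩

theorem J2le.congr (h : J2le g K q) (e : f =ᶠ[𝓝 q] g) : J2le f K q := by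
  have e1 : ∀ w, (fun y => fderiv ℝ f y w) =ᶠ[𝓝 q] fun y => fderiv ℝ g y w := fun w =>
    (e.fderiv (𝕜 := ℝ)).mono fun y hy => congrArg (· w) hy
  refine ⟨e.self_of_nhds ▸ h.h0, ?_, ?_, ?_, ?_, ?_⟩
  · rw [d1, e.fderiv_eq]; exact h.h1
  · rw [d2, e.fderiv_eq]; exact h.h2
  · unfold d1; rw [(e1 _).fderiv_eq]; exact h.h11
  · unfold d1 d2; rw [(e1 _).fderiv_eq]; exact h.h12
  · unfold d2; rw [(e1 _).fderiv_eq]; exact h.h22

theorem mul_le {x y : ℝ} (hx : |x| ≤ α) (hy : |y| ≤ β) : |x * y| ≤ α * β := by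
  rw [abs_mul]; exact mul_le_mul hx hy (abs_nonneg _) ((abs_nonneg _).trans hx)

theorem add_le {x y : ℝ} (hx : |x| ≤ α) (hy : |y| ≤ β) : |x + y| ≤ α + β :=
  (abs_add_le _ _).trans (add_le_add hx hy)

theorem J2le.mul (hf : ContDiffAt ℝ 2 f q) (hg : ContDiffAt ℝ 2 g q) (a : J2le f α q)
    (b : J2le g β q) : J2le (fun y => f y * g y) (4 * (α * β)) q := by
  have f0 := hf.differentiableAt (by simp)
  have g0 := hg.differentiableAt (by simp)
  have k := mul_nonneg a.nonneg b.nonneg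
  refine ⟨(mul_le a.h0 b.h0).trans (by linarith), ?_, ?_, ?_, ?_, ?_⟩
  · rw [d1, dd_mul f0 g0]
    exact (add_le (mul_le a.h0 b.h1) (mul_le a.h1 b.h0)).trans (by linarith)
  · rw [d2, dd_mul f0 g0]
    exact (add_le (mul_le a.h0 b.h2) (mul_le a.h2 b.h0)).trans (by linarith)
  · unfold d1; rw [dd2_mul hf hg]
    exact (add_le (add_le (mul_le a.h0 b.h11) (mul_le a.h1 b.h1))
      (add_le (mul_le a.h1 b.h1) (mul_le a.h11 b.h0))).trans (by linarith)
  · unfold d1 d2; rw [dd2_mul hf hg]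
    exact (add_le (add_le (mul_le a.h0 b.h12) (mul_le a.h1 b.h2))
      (add_le (mul_le a.h2 b.h1) (mul_le a.h12 b.h0))).trans (by linarith)
  · unfold d2; rw [dd2_mul hf hg]
    exact (add_le (add_le (mul_le a.h0 b.h22) (mul_le a.h2 b.h2))
      (add_le (mul_le a.h2 b.h2) (mul_le a.h22 b.h0))).trans (by linarith)

theorem D2le.comp (hf : ContDiffAt ℝ 2 f q) (hψ : ContDiffAt ℝ 2 ψ (f q)) (a : D2le f K q)
    (b0 : |ψ (f q)| ≤ M) (b1 : |deriv ψ (f q)| ≤ M) (b2 : |deriv (deriv ψ) (f q)| ≤ M) :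
    J2le (fun y => ψ (f y)) (M * (1 + K + K * K)) q := by
  have f0 := hf.differentiableAt (by simp)
  have g0 := hψ.differentiableAt (by simp)
  have hM : 0 ≤ M := (abs_nonneg _).trans b0
  have hK : 0 ≤ K := (abs_nonneg _).trans a.h1
  have k1 := mul_nonneg hM hK
  have k2 := mul_nonneg k1 hK
  refine ⟨b0.trans (by nlinarith), ?_, ?_, ?_, ?_, ?_⟩
  · rw [d1, dd_comp f0 g0]; exact (mul_le b1 a.h1).trans (by nlinarith)
  · rw [d2, dd_comp f0 g0]; exact (mul_le b1 a.h2).trans (by nlinarith)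
  · unfold d1; rw [dd2_comp hf hψ]
    exact (add_le (mul_le b1 a.h11) (mul_le (mul_le b2 a.h1) a.h1)).trans (by nlinarith)
  · unfold d1 d2; rw [dd2_comp hf hψ]
    exact (add_le (mul_le b1 a.h12) (mul_le (mul_le b2 a.h1) a.h2)).trans (by nlinarith)
  · unfold d2; rw [dd2_comp hf hψ]
    exact (add_le (mul_le b1 a.h22) (mul_le (mul_le b2 a.h2) a.h2)).trans (by nlinarith)

/-- affine functions -/
theorem d2le_aff (c : ℝ) (L : ℝ × ℝ →L[ℝ] ℝ) (h1 : |L (1, 0)| ≤ K) (h2 : |L (0, 1)| ≤ K) :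
    D2le (fun y => c + L y) K q := by
  have e : ∀ y, fderiv ℝ (fun y => c + L y) y = L := fun y => (L.hasFDerivAt.const_add c).fderiv
  have hK : 0 ≤ K := (abs_nonneg _).trans h1
  refine ⟨by rwa [d1, e], by rwa [d2, e], ?_, ?_, ?_⟩
  · unfold d1; simpa [e] using hK
  · unfold d1 d2; simpa [e] using hK
  · unfold d2; simpa [e] using hK

theorem j2le_zero (hK : 0 ≤ K) : J2le (fun _ => 0) K q := by
  refine ⟨by simpa using hK, ?_, ?_, ?_, ?_, ?_⟩
  · unfold d1; simpa using hK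
  · unfold d2; simpa using hK
  · unfold d1; simpa using hK
  · unfold d1 d2; simpa using hK
  · unfold d2; simpa using hK

/-- bounds for two derivatives on a compact set -/
theorem exists_bd {O A : Set ℝ} (hO : IsOpen O) (hA : IsCompact A) (hAO : A ⊆ O)
    (hψ : ContDiffOn ℝ ∞ ψ O) :
    ∃ M, ∀ s ∈ A, |ψ s| ≤ M ∧ |deriv ψ s| ≤ M ∧ |deriv (deriv ψ) s| ≤ M := by
  have h1 : ContDiffOn ℝ ∞ (deriv ψ) O := ((contDiffOn_infty_iff_deriv_of_isOpen hO).1 hψ).2
  have h2 : ContDiffOn ℝ ∞ (deriv (deriv ψ)) O := ((contDiffOn_infty_iff_deriv_of_isOpen hO).1 h1).2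
  obtain ⟨M0, b0⟩ := hA.exists_bound_of_continuousOn (hψ.continuousOn.mono hAO)
  obtain ⟨M1, b1⟩ := hA.exists_bound_of_continuousOn (h1.continuousOn.mono hAO)
  obtain ⟨M2, b2⟩ := hA.exists_bound_of_continuousOn (h2.continuousOn.mono hAO)
  exact ⟨max M0 (max M1 M2), fun s hs => ⟨(b0 s hs).trans (le_max_left _ _),
    (b1 s hs).trans (le_max_of_le_right (le_max_left _ _)),
    (b2 s hs).trans (le_max_of_le_right (le_max_right _ _))⟩⟩

theorem exists_bd_st : ∃ M, ∀ s, |Real.smoothTransition s| ≤ M ∧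
    |deriv Real.smoothTransition s| ≤ M ∧ |deriv (deriv Real.smoothTransition) s| ≤ M := by
  obtain ⟨M, hM⟩ := exists_bd isOpen_univ (isCompact_Icc (a := (0 : ℝ)) (b := 1)) (subset_univ _)
    (Real.smoothTransition.contDiff (n := ⊤)).contDiffOn
  have h0 : 0 ≤ M := (abs_nonneg _).trans (hM 0 (by simp)).1
  have h1 : ∀ s c, (Real.smoothTransition =ᶠ[𝓝 s] fun _ => c) →
      |deriv Real.smoothTransition s| ≤ max M 1 ∧
        |deriv (deriv Real.smoothTransition) s| ≤ max M 1 := fun s c e => by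
    rw [e.deriv_eq, e.deriv.deriv_eq]
    simp
  refine ⟨max M 1, fun s => ⟨?_, ?_⟩⟩
  · rw [abs_of_nonneg (Real.smoothTransition.nonneg s)]
    exact (Real.smoothTransition.le_one s).trans (le_max_right _ _)
  · rcases lt_or_ge s 0 with h | h
    · exact h1 s 0 ((gt_mem_nhds h).mono fun _ hy => Real.smoothTransition.zero_of_nonpos hy.le)
    · rcases lt_or_ge 1 s with h' | h'
      · exact h1 s 1 ((lt_mem_nhds h').mono fun _ hy => Real.smoothTransition.one_of_one_le hy.le)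
      · exact ⟨(hM s ⟨h, h'⟩).2.1.trans (le_max_left _ _),
          (hM s ⟨h, h'⟩).2.2.trans (le_max_left _ _)⟩

/-- the cut-off at `c` -/
def ka (c : ℝ) (q : ℝ × ℝ) : ℝ := Real.smoothTransition (c - q.1)

theorem contDiff_ka (c : ℝ) : ContDiff ℝ ∞ (ka c) :=
  Real.smoothTransition.contDiff.comp (contDiff_const.sub contDiff_fst)

theorem exists_ka : ∃ K, 1 ≤ K ∧ ∀ (c : ℝ) (g : ℝ × ℝ → ℝ) (q : ℝ × ℝ) (ε : ℝ),
    ContDiffAt ℝ 2 g q → J2le g ε q → J2le (fun y => ka c y * g y) (K * ε) q := by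
  obtain ⟨M, hM⟩ := exists_bd_st
  have h0 : 0 ≤ M := (abs_nonneg _).trans (hM 0).1
  refine ⟨12 * M + 1, by linarith, fun c g q ε hg h => ?_⟩
  have h1 : D2le (fun y => c + (-ContinuousLinearMap.fst ℝ ℝ ℝ) y) 1 q :=
    d2le_aff c _ (by simp) (by simp)
  have h2 := D2le.comp (contDiffAt_const.add (-ContinuousLinearMap.fst ℝ ℝ ℝ).contDiff.contDiffAt)
    Real.smoothTransition.contDiffAt h1 (hM _).1 (hM _).2.1 (hM _).2.2
  have h3 : J2le (ka c) (M * (1 + 1 + 1 * 1)) q :=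
    h2.congr (.of_forall fun y => by simp [ka, sub_eq_add_neg])
  exact (J2le.mul ((contDiff_ka c).contDiffAt.of_le (WithTop.coe_le_coe.2 le_top)) hg h3 h).mono
    (by nlinarith [h.nonneg])

end Plane

end Crest.Agent.N250.Fm

end
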