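import Crest.Agent.N250.Fm.En

/-!
# Row 250, real side (helper25): `Fm.PairS` and `Fm.ElS`
-/

set_option autoImplicit false
open MeasureTheory Set Filter Topology
open scoped ContDiff InnerProductSpace
open Crest.GeometryTopology.MCF

noncomputable section

namespace Crest.Agent.N250.Fm

open Wr Po

theorem KX_congr {S : Mv} {X X' : ST → E} {p : ST} (hp : p ∈ S.M) (h : X =ᶠ[𝓝[S.M] p] X') :
    S.KX X p = S.KX X' p := by
  funext a b c
  exact Mv.D_congr hp (Mv.eventually_D_congr (h.mono fun q hq => by simp only [Mv.cp, hq]) b) a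

theorem fv_off (G : Mv) {g : E → ℝ} {p : ST} (hg : p.1 ∉ tsupport g) : G.fv g p = 0 := by
  have e : g =ᶠ[𝓝 p.1] fun _ => 0 := notMem_tsupport_iff_eventuallyEq.1 hg
  rw [Mv.fv, e.gradient_eq, e.self_of_nhds]
  simp

variable {S : Mv} {e : Ends S} {d : Dat e} {n : ℕ} {f : Fin n → E → ℝ} {a b X₀ : ℝ}
  {ζ c : Fin n → ℝ} {A : ℝ} {Y : E → E} {G : Mv} {x : E}

namespace Ctx

variable (h : Ctx S e d f a b X₀ ζ c A Y G)
include h

/-- beyond `a` on a tube, or in the open core with `zeta = 1` -/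
theorem far_or_core (hx : x ∈ S.sl 0) :
    (∃ j, ((x, 0) : ST) ∈ tube e j e.R ∧ a < xi e j x) ∨ ∀ j, ((x, 0) : ST) ∈ Off e j ((a + b) / 2) ∧
      chi e j a b x = 0 := by
  by_cases k : ∃ j, ((x, 0) : ST) ∈ tube e j e.R ∧ a < xi e j x
  · exact Or.inl k
  · refine Or.inr fun j => ?_
    have := h.ab
    rcases tube_or_off h.shr.st h.Rlt (p := (x, 0)) hx j with k1 | k1
    · have k2 : xi e j x ≤ a := not_lt.1 fun k2 => k ⟨j, k1, k2⟩
      exact ⟨Or.inl (by change xi e j x < _; linarith), chi_zero_of_le h.ab k2⟩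
    · exact ⟨Off_mono (by linarith) k1, chi_zero (p := (x, 0)) h.ab k1⟩

/-- the image of the tubes beyond `a` misses the ball of radius `a` -/
theorem far_norm (hx : x ∈ S.sl 0) {j : Fin e.p} (hj : ((x, 0) : ST) ∈ tube e j e.R)
    (k : a < xi e j x) : a ≤ ‖x + Y x‖ := by
  by_cases k2 : xi e j x < X₀ - 2
  · obtain ⟨q, q1, -, q3⟩ := h.exists_q hx hj
    have e1 := h.glue.en j q (q1 ▸ k) (q1 ▸ k2)
    rw [← q3] at e1
    have e2 := norm_pX_sq (Q := d.Q j) (d.r j) q
    rw [← e1, q1] at e2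
    have := R_pos e
    have := h.Ra
    exact le_of_sq_le_sq (by nlinarith [sq_nonneg (d.r j q)]) (norm_nonneg _)
  · linarith [h.glue.size x hx, norm_le_add_norm_add x (Y x), h.bX, h.ab, h.Ra, R_pos e,
      le_abs_self (xi e j x), abs_xi_le j x]

theorem far_supp (hx : x ∈ S.sl 0) {j : Fin e.p} (hj : ((x, 0) : ST) ∈ tube e j e.R)
    (k : a < xi e j x) (i : Fin n) : x + Y x ∉ tsupport (f i) := fun hs =>
  (h.far_norm hx hj k).not_gt (mem_ball_zero_iff.1 (h.supp i hs))

end Ctx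

theorem pairS_holds : PairS := by
  intro S e d n f a b X₀ ζ c A Y G h i
  rw [h.par.int, ← h.sol.pair i]
  refine integral_congr_ae ((ae_restrict_mem (FV.meas_sl h.shr.reg 0)).mono fun x hx => ?_)
  have key : (∀ j, ((x, 0) : ST) ∈ Off e j b) → x + Y x = d.X (x, 0) ∧
      S.sX (fun p => p.1 + Y p.1) (x, 0) = S.sX d.X (x, 0) := fun ho =>
    ⟨(h.ev_core ho).eq_of_nhdsWithin hx, sX_congr (p := (x, 0)) hx (h.ev_core ho)⟩
  rcases h.far_or_core hx with ⟨j, hj, k⟩ | ho
  · have h0 : f i (x + Y x) = 0 := image_eq_zero_of_notMem_tsupport (h.far_supp hx hj k i)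
    by_cases hz : zeta e a b x = 0
    · simp only [hz, h0, smul_zero, zero_mul]
    · simp only [← (key (h.off_of_zeta (p := (x, 0)) hx hz)).1, h0, smul_zero, zero_mul, mul_zero]
  · have hz : zeta e a b x = 1 := Finset.prod_eq_one fun j _ => by rw [(ho j).2, sub_zero]
    obtain ⟨e1, e2⟩ := key fun j => Off_mono (by linarith [h.ab]) (ho j).1
    simp only [hz, e1, e2, smul_eq_mul, one_mul, mul_comm]

theorem elS_holds : ElS := by
  intro S e d n f a b X₀ ζ c A Y G h y hy hB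
  rw [h.par.sl_eq] at hy
  obtain ⟨x, hx, rfl⟩ := hy
  rcases h.far_or_core hx with ⟨j, hj, k⟩ | ho
  · obtain ⟨q, q1, -, q3⟩ := h.exists_q hx hj
    have k1 : a < q.1 := q1 ▸ k
    have k2 : q.1 < X₀ - 2 := q1 ▸ ((le_abs_self _).trans (abs_xi_le j x)).trans_lt (h.norm_lt hx hB)
    have e1 := h.glue.en j q k1 k2
    rw [← q3] at e1
    have e2 := (h.pol j k1 k2).shr_eq_zero_iff.2 (h.sol.elv j q k1 (by linarith))
    rw [← e1] at e2
    simp only [e2, fv_off G (p := (x + Y x, 0)) (h.far_supp hx hj k _), mul_zero,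
      Finset.sum_const_zero]
  · have ho' : ∀ j, ((x, 0) : ST) ∈ Off e j b := fun j => Off_mono (by linarith [h.ab]) (ho j).1
    have ev := h.ev_core ho'
    have e1 : x + Y x = d.X (x, 0) := ev.eq_of_nhdsWithin hx
    have hp : ((x, 0) : ST) ∈ S.M := hx
    have e2 := h.sol.el _ hp (core_of_off ho')
    have hs := (h.par.toEmb.s_pos hp).ne'
    have e3 := h.par.shr_eq hp
    have e4 := h.par.H_eq hp
    have e5 := h.par.n_eq _ hp
    rw [sX_congr hp ev] at hs
    simp only [hat, Mv.ELX, Mv.HX, Mv.NX, sX_congr hp ev, JX_congr hp ev, KX_congr hp ev,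
      e1] at e2 e3 e4 e5
    simp only [e1, Mv.fv, e3, e4, e5, inner_smul_right]
    rw [show ∀ s t u : ℝ, s * (t * u / 2) = t * (s * u / 2) from fun _ _ _ => by ring, e2,
      Finset.mul_sum]
    refine Finset.sum_congr rfl fun i _ => ?_
    field_simp

end Crest.Agent.N250.Fm

end
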